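import Vale.Agent.P122.C.Defs2
import Vale.Agent.P122.H540.Geo
import Vale.Agent.P127.U.PLa

/-!
# P122 / case (P), the direction half (helper371)

Flags: nodes `N c`, paths `Pth` of 540.  `nd φ s n N c` = normal digit of the slope of `N (c+1)` in
the frame `φ c`, `qd θ s n N b i` = normal digit (accuracy `2^-(b n)`) of the slope of `N i` in the frame `θ`,
`Bad φ θ β c` = the frames `φ c`, `θ` differ by more than `β`.

`qdig` : `Σ_{a ≤ c < b} (H(τ(c+1) | N 0, τ c) - H(τ(c+1) | N c, nd c)) ≤ H(q | N 0, τ a, G) + Σ_{a ≤ c < b} (log (2 M + 3) +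
2 n log 2 P(Bad c) + H(G | N 0, τ a))`.
-/

set_option autoImplicit false

namespace Vale.Agent.P122.H371

open Vale.Agent.P127 Vale.Agent.P127.Stk Vale.Agent.P122.C2 Vale.Agent.P122.H540 Finset

/-! ### frames -/

/-- rotation of the frame -/
theorem fn_rot (φ θ : ℝ) (v : Fin 2 → ℝ) :
    fn φ v = Real.cos (φ - θ) * fn θ v - Real.sin (φ - θ) * fw θ v := by
  have h1 := Real.sin_sq_add_cos_sq θ
  unfold fn fw
  rw [Real.cos_sub, Real.sin_sub]
  linear_combination (-Real.sin φ * v 0 + Real.cos φ * v 1) * (-h1)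

theorem fn_sub (φ : ℝ) (v w : Fin 2 → ℝ) : fn φ v - fn φ w = fn φ (fun k => v k - w k) := by
  unfold fn
  ring

theorem fn_abs (φ : ℝ) (v : Fin 2 → ℝ) {δ : ℝ} (h : ∀ k, |v k| ≤ δ) : |fn φ v| ≤ 2 * δ := by
  unfold fn
  have h0 := h 0
  have h1 := h 1
  have hs := Real.abs_sin_le_one φ
  have hc := Real.abs_cos_le_one φ
  have e1 : |-Real.sin φ * v 0| ≤ 1 * δ := by
    rw [abs_mul, abs_neg]
    exact mul_le_mul hs h0 (abs_nonneg _) zero_le_one
  have e2 : |Real.cos φ * v 1| ≤ 1 * δ := by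
    rw [abs_mul]
    exact mul_le_mul hc h1 (abs_nonneg _) zero_le_one
  have := abs_add_le (-Real.sin φ * v 0) (Real.cos φ * v 1)
  linarith

theorem fw_abs (φ : ℝ) (v : Fin 2 → ℝ) {δ : ℝ} (h : ∀ k, |v k| ≤ δ) : |fw φ v| ≤ 2 * δ := by
  unfold fw
  have h0 := h 0
  have h1 := h 1
  have hs := Real.abs_sin_le_one φ
  have hc := Real.abs_cos_le_one φ
  have e1 : |Real.cos φ * v 0| ≤ 1 * δ := by
    rw [abs_mul]
    exact mul_le_mul hc h0 (abs_nonneg _) zero_le_one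
  have e2 : |Real.sin φ * v 1| ≤ 1 * δ := by
    rw [abs_mul]
    exact mul_le_mul hs h1 (abs_nonneg _) zero_le_one
  have := abs_add_le (Real.cos φ * v 0) (Real.sin φ * v 1)
  linarith

/-- change of the frame for a small vector -/
theorem fn_change {φ θ δ ε D : ℝ} {v : Fin 2 → ℝ} (hv : ∀ k, |v k| ≤ δ)
    (hs : |Real.sin (φ - θ)| ≤ ε) (hn : |fn θ v| ≤ D) : |fn φ v| ≤ D + ε * (2 * δ) := by
  rw [fn_rot φ θ v]
  have h1 := fw_abs θ v hv
  have e1 : |Real.cos (φ - θ) * fn θ v| ≤ 1 * D := by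
    rw [abs_mul]
    exact mul_le_mul (Real.abs_cos_le_one _) hn (abs_nonneg _) zero_le_one
  have e2 : |Real.sin (φ - θ) * fw θ v| ≤ ε * (2 * δ) := by
    rw [abs_mul]
    exact mul_le_mul hs h1 (abs_nonneg _) ((abs_nonneg _).trans hs)
  have := abs_sub (Real.cos (φ - θ) * fn θ v) (Real.sin (φ - θ) * fw θ v)
  linarith

/-! ### caps -/

theorem par_kids {n : ℕ} {τ τ' : Z2} (h : τ' ∈ kids n τ) : par n τ' = τ := by
  unfold kids at h
  rw [Fintype.mem_piFinset] at h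
  ext k
  have h1 := Finset.mem_Ico.1 (h k)
  have hn : (0 : ℤ) < 2 ^ n := by positivity
  show τ' k / 2 ^ n = τ k
  rw [Int.ediv_eq_iff_of_pos hn]
  constructor
  · have := h1.1; nlinarith
  · have := h1.2; nlinarith

theorem kids_par {n : ℕ} {τ τ' : Z2} (h : τ = par n τ') : τ' ∈ kids n τ := by
  unfold kids
  rw [Fintype.mem_piFinset]
  intro k
  have hn : (0 : ℤ) < 2 ^ n := by positivity
  have hk : τ k = τ' k / 2 ^ n := congrFun h k
  have h1 : (τ' k / 2 ^ n) * 2 ^ n ≤ τ' k := Int.ediv_mul_le _ hn.ne'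
  have h2 : τ' k < (τ' k / 2 ^ n + 1) * 2 ^ n := Int.lt_ediv_add_one_mul_self (τ' k) hn
  rw [Finset.mem_Ico, hk]
  constructor <;> nlinarith

theorem kids_card (n : ℕ) (τ : Z2) : (kids n τ).card = 2 ^ (2 * n) := by
  unfold kids
  rw [Fintype.card_piFinset]
  simp only [Int.card_Ico, Fin.prod_univ_two]
  have h : ∀ k, (2 ^ n * (τ k + 1) - 2 ^ n * τ k : ℤ).toNat = 2 ^ n := by
    intro k
    have : (2 ^ n * (τ k + 1) - 2 ^ n * τ k : ℤ) = ((2 ^ n : ℕ) : ℤ) := by push_cast; ring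
    rw [this, Int.toNat_natCast]
  rw [h, h, two_mul, pow_add]

/-! ### entropies of integer parts -/

section ent

variable {Ω : Type} [Fintype Ω] (P : Law Ω)

/-- finitely many integer parts -/
theorem floor_mem (B : ℕ) {x y : ℝ} (h : |y - x| ≤ B) : ⌊y⌋ ∈ Finset.Icc (⌊x⌋ - (B + 1)) (⌊x⌋ + (B + 1)) := by
  have h2 := abs_le.1 h
  have f1 := Int.floor_le x
  have f2 := Int.lt_floor_add_one x
  have f3 := Int.floor_le y
  have f4 := Int.lt_floor_add_one y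
  rw [Finset.mem_Icc]
  constructor
  · have : ((⌊x⌋ - (B + 1) : ℤ) : ℝ) < ((⌊y⌋ + 1 : ℤ) : ℝ) := by
      push_cast
      linarith [h2.1]
    have := Int.cast_lt.1 this
    omega
  · have : ((⌊y⌋ : ℤ) : ℝ) < ((⌊x⌋ + (B + 1) + 1 : ℤ) : ℝ) := by
      push_cast
      linarith [h2.2]
    have := Int.cast_lt.1 this
    omega

theorem floor_card (B : ℕ) (x : ℝ) : (Finset.Icc (⌊x⌋ - ((B:ℤ) + 1)) (⌊x⌋ + (B + 1))).card ≤ 2 * B + 3 := by
  rw [Int.card_Icc]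
  omega

theorem floor_close {m : ℕ} {x y : ℝ} (h : ⌊(2:ℝ) ^ m * x⌋ = ⌊(2:ℝ) ^ m * y⌋) :
    |x - y| ≤ (1 / 2 : ℝ) ^ m := by
  have hp : (0:ℝ) < 2 ^ m := by positivity
  have f1 := Int.floor_le ((2:ℝ) ^ m * x)
  have f2 := Int.lt_floor_add_one ((2:ℝ) ^ m * x)
  have f3 := Int.floor_le ((2:ℝ) ^ m * y)
  have f4 := Int.lt_floor_add_one ((2:ℝ) ^ m * y)
  rw [h] at f1 f2
  have e : (1 / 2 : ℝ) ^ m * 2 ^ m = 1 := by
    rw [← mul_pow]
    norm_num
  rw [abs_le]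
  constructor
  · by_contra hc
    push Not at hc
    have : (2:ℝ) ^ m * (x - y) < 2 ^ m * (-(1 / 2 : ℝ) ^ m) := mul_lt_mul_of_pos_left hc hp
    nlinarith
  · by_contra hc
    push Not at hc
    have : (2:ℝ) ^ m * (1 / 2 : ℝ) ^ m < 2 ^ m * (x - y) := mul_lt_mul_of_pos_left hc hp
    nlinarith

end ent

/-! ### flags -/

/-- the frames `φ c`, `θ` differ by more than `β` -/
def Bad {Ω : Type} (φ : ℕ → Ω → ℝ) (θ : Ω → ℝ) (β : ℝ) (c : ℕ) (ω : Ω) : Prop := β < |Real.sin (φ c ω - θ ω)|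

open Classical in
/-- probability of an event -/
noncomputable def pb {Ω : Type} [Fintype Ω] (P : Law Ω) (E : Ω → Prop) : ℝ := P.ex fun ω => if E ω then 1 else 0

/-- all outcomes of the support are paths of the tree -/
def Flags {Ω : Type} [Fintype Ω] (P : Law Ω) (n K : ℕ) (s : ℕ → Z2 → Fin 2 → ℝ) (N : ℕ → Ω → Nd) : Prop :=
  ∀ ω, 0 < P.w ω → Pth n K s fun c => N c ω

section flags

variable {Ω : Type} [Fintype Ω] {P : Law Ω} {n K : ℕ} {s : ℕ → Z2 → Fin 2 → ℝ} {N : ℕ → Ω → Nd}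

/-- the earlier caps are functions of the later ones -/
theorem Flags.cap_fn (h : Flags P n K s N) {c d : ℕ} (hcd : c ≤ d) (hd : d ≤ K) :
    Fn P (fun ω => (N c ω).τ) (fun ω => (N d ω).τ) :=
  fun ω ω' p p' e => (h ω p).τ_inj (h ω' p') hcd hd e

/-- the node is a function of the point and of the cap -/
theorem Flags.node_fn (h : Flags P n K s N) {c : ℕ} (hc : c ≤ K) :
    Fn P (N c) (fun ω => (N 0 ω, (N c ω).τ)) := by
  intro ω ω' p p' e
  obtain ⟨e1, e2⟩ := Prod.mk.inj e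
  exact (h ω p).node_inj (h ω' p') hc e1 e2

/-- the slopes of a path converge -/
theorem slope_le {N : ℕ → Nd} (h : Pth n K s N) {C : ℝ} (hC : 0 ≤ C) (hs : Slp C n K s) (hn : 1 ≤ n) {c d : ℕ}
    (hcd : c ≤ d) (hd : d ≤ K) (k : Fin 2) :
    |s d (N d).τ k - s c (N c).τ k| ≤ 2 * C * (1 / 2 : ℝ) ^ (c * n) := by
  have key : ∀ m, c + m ≤ K → |s (c + m) (N (c + m)).τ k - s c (N c).τ k| ≤
      2 * C * (1 / 2 : ℝ) ^ (c * n) * (1 - (1 / 2 : ℝ) ^ m) := by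
    intro m
    induction m with
    | zero => intro _; simp
    | succ m ih =>
      intro hm
      have h1 := ih (by omega)
      have h2 := hs.nest (c + m) (N (c + m + 1)).τ k (by omega) (h.cap (c + m + 1) (by omega))
      rw [← h.par (c + m) (by omega)] at h2
      have h3 : C / 2 ^ ((c + m) * n) ≤ C * (1 / 2 : ℝ) ^ (c * n) * (1 / 2 : ℝ) ^ m := by
        have e1 : C / 2 ^ ((c + m) * n) = C * (1 / 2 : ℝ) ^ (c * n) * (1 / 2 : ℝ) ^ (m * n) := by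
          rw [add_mul, pow_add]
          simp only [one_div, inv_pow]
          field_simp
        rw [e1]
        refine mul_le_mul_of_nonneg_left ?_ (by positivity)
        exact pow_le_pow_of_le_one (by norm_num) (by norm_num) (Nat.le_mul_of_pos_right m hn)
      have h4 := abs_sub_le (s (c + m + 1) (N (c + m + 1)).τ k) (s (c + m) (N (c + m)).τ k) (s c (N c).τ k)
      have h5 : (1 / 2 : ℝ) ^ (m + 1) = (1 / 2) * (1 / 2 : ℝ) ^ m := by ring
      rw [← add_assoc, h5]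
      have h6 : 0 ≤ C * (1 / 2 : ℝ) ^ (c * n) := by positivity
      nlinarith
  obtain ⟨m, rfl⟩ := Nat.exists_eq_add_of_le hcd
  refine (key m hd).trans ?_
  have h6 : 0 ≤ 2 * C * (1 / 2 : ℝ) ^ (c * n) := by positivity
  have h7 : 0 ≤ (1 / 2 : ℝ) ^ m := by positivity
  nlinarith

/-- normal digit of the slope of `N (c + 1)` in the frame `φ c` -/
noncomputable def nd (φ : ℕ → Ω → ℝ) (s : ℕ → Z2 → Fin 2 → ℝ) (n : ℕ) (N : ℕ → Ω → Nd) (c : ℕ) (ω : Ω) : ℤ :=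
  ⌊(2:ℝ) ^ ((c + 1) * n) * fn (φ c ω) (s (c + 1) (N (c + 1) ω).τ)⌋

/-- normal digit of the slope of `N i` in the frame `θ`, accuracy `2^-(b n)` -/
noncomputable def qd (θ : Ω → ℝ) (s : ℕ → Z2 → Fin 2 → ℝ) (n : ℕ) (N : ℕ → Ω → Nd) (b i : ℕ) (ω : Ω) : ℤ :=
  ⌊(2:ℝ) ^ (b * n) * fn (θ ω) (s i (N i ω).τ)⌋

/-- the digit of the frame `φ c` is a function of the node `N c` and of the digit of the frame `θ`, up to `O(1)` -/
theorem nd_close (h : Flags P n K s N) {C : ℝ} (hC : 0 ≤ C) (hs : Slp C n K s) (hn : 1 ≤ n) {b c i : ℕ} (hcb : c < b)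
    (hbi : b ≤ i) (hi : i ≤ K) (φ : ℕ → Ω → ℝ) (hφ : Fn P (φ c) (N c)) (θ : Ω → ℝ) {B : ℝ}
    {ω ω' : Ω} (p : 0 < P.w ω) (p' : 0 < P.w ω') (hθ : |Real.sin (φ c ω - θ ω)| ≤ B * (1 / 2 : ℝ) ^ n)
    (e1 : N c ω = N c ω') (e2 : θ ω = θ ω') (e3 : qd θ s n N b i ω = qd θ s n N b i ω') :
    |(2:ℝ) ^ ((c + 1) * n) * fn (φ c ω) (s (c + 1) (N (c + 1) ω).τ) -
      (2:ℝ) ^ ((c + 1) * n) * fn (φ c ω') (s (c + 1) (N (c + 1) ω').τ)| ≤ 1 + 8 * C + 8 * B * C := by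
  have eφ : φ c ω = φ c ω' := hφ ω ω' p p' e1
  rw [← eφ, ← mul_sub, fn_sub, abs_mul, abs_of_pos (by positivity : (0:ℝ) < 2 ^ ((c + 1) * n))]
  set v := s (c + 1) (N (c + 1) ω).τ
  set v' := s (c + 1) (N (c + 1) ω').τ
  have hv : ∀ k, |v k - v' k| ≤ 4 * C * (1 / 2 : ℝ) ^ (c * n) := by
    intro k
    have g1 := slope_le (h ω p) hC hs hn (Nat.le_succ c) (by omega) k
    have g2 := slope_le (h ω' p') hC hs hn (Nat.le_succ c) (by omega) k
    simp only [← e1] at g2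
    have := abs_sub_le (v k) (s c (N c ω).τ k) (v' k)
    rw [abs_sub_comm (s c (N c ω).τ k) (v' k)] at this
    linarith
  have hq := floor_close e3
  rw [← e2, fn_sub] at hq
  have hi1 : ∀ k, |v k - s i (N i ω).τ k| ≤ 2 * C * (1 / 2 : ℝ) ^ ((c + 1) * n) := by
    intro k
    rw [abs_sub_comm]
    exact slope_le (h ω p) hC hs hn (by omega) hi k
  have hi2 : ∀ k, |v' k - s i (N i ω').τ k| ≤ 2 * C * (1 / 2 : ℝ) ^ ((c + 1) * n) := by
    intro k
    rw [abs_sub_comm]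
    exact slope_le (h ω' p') hC hs hn (by omega) hi k
  have hb : (1 / 2 : ℝ) ^ (b * n) ≤ (1 / 2 : ℝ) ^ ((c + 1) * n) :=
    pow_le_pow_of_le_one (by norm_num) (by norm_num) (Nat.mul_le_mul_right n hcb)
  have hD : |fn (θ ω) (fun k => v k - v' k)| ≤ (1 + 8 * C) * (1 / 2 : ℝ) ^ ((c + 1) * n) := by
    have e : fn (θ ω) (fun k => v k - v' k) = fn (θ ω) (fun k => s i (N i ω).τ k - s i (N i ω').τ k) +
        fn (θ ω) (fun k => v k - s i (N i ω).τ k) - fn (θ ω) (fun k => v' k - s i (N i ω').τ k) := by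
      unfold fn
      ring
    rw [e]
    have g1 := fn_abs (θ ω) (fun k => v k - s i (N i ω).τ k) hi1
    have g2 := fn_abs (θ ω) (fun k => v' k - s i (N i ω').τ k) hi2
    rw [abs_le] at g1 g2 hq ⊢
    constructor <;> linarith [g1.1, g1.2, g2.1, g2.2, hq.1, hq.2]
  have h1 := fn_change hv hθ hD
  have e5 : (2:ℝ) ^ ((c + 1) * n) * (1 / 2 : ℝ) ^ ((c + 1) * n) = 1 := by
    rw [← mul_pow]
    norm_num
  have e6 : (1 / 2 : ℝ) ^ ((c + 1) * n) = (1 / 2 : ℝ) ^ n * (1 / 2 : ℝ) ^ (c * n) := by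
    rw [← pow_add]
    congr 1
    ring
  calc (2:ℝ) ^ ((c + 1) * n) * |fn (φ c ω) (fun k => v k - v' k)|
      ≤ 2 ^ ((c + 1) * n) * ((1 + 8 * C) * (1 / 2 : ℝ) ^ ((c + 1) * n) +
          B * (1 / 2 : ℝ) ^ n * (2 * (4 * C * (1 / 2 : ℝ) ^ (c * n)))) :=
        mul_le_mul_of_nonneg_left h1 (by positivity)
    _ = (1 + 8 * C + 8 * B * C) * (2 ^ ((c + 1) * n) * (1 / 2 : ℝ) ^ ((c + 1) * n)) := by
        rw [e6]
        ring
    _ = _ := by rw [e5, mul_one]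

variable {α : Type*}

/-- the normal digit costs `O(1)` off the bad event -/
theorem nd_cost (h : Flags P n K s N) {C : ℝ} (hC : 0 ≤ C) (hs : Slp C n K s) (hn : 1 ≤ n) {b c i : ℕ} (hcb : c < b)
    (hbi : b ≤ i) (hi : i ≤ K) (φ : ℕ → Ω → ℝ) (hφ : Fn P (φ c) (N c)) (G : Ω → α) (θ : Ω → ℝ) (hG : Fn P θ G)
    {B : ℝ} {M : ℕ} (hM : 1 + 8 * C + 8 * B * C ≤ M) :
    hc P (nd φ s n N c) (fun ω => (qd θ s n N b i ω, (N 0 ω, (N c ω).τ, G ω))) ≤
      Real.log (2 * M + 3) + 2 * n * Real.log 2 * pb P (Bad φ θ (B * (1 / 2 : ℝ) ^ n) c) := by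
  classical
  have hnode := h.node_fn (by omega : c ≤ K)
  have h1 := Vale.Agent.P127.U.PL.hc_le_exlog P (nd φ s n N c)
    (fun ω => (qd θ s n N b i ω, (N 0 ω, (N c ω).τ, G ω)))
    (fun ω => if Bad φ θ (B * (1 / 2 : ℝ) ^ n) c ω then 2 ^ (2 * n) else 2 * M + 3) (fun ω hω => by
      by_cases hb : Bad φ θ (B * (1 / 2 : ℝ) ^ n) c ω
      · rw [if_pos hb]
        refine ⟨(kids n (N c ω).τ).image fun τ' => ⌊(2:ℝ) ^ ((c + 1) * n) * fn (φ c ω) (s (c + 1) τ')⌋,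
          Finset.card_image_le.trans (kids_card n _).le, fun ω' hω' e => ?_⟩
        simp only [Prod.mk.injEq] at e
        obtain ⟨e1, e2, e3, e4⟩ := e
        have g2 : N c ω' = N c ω := hnode ω' ω hω' hω (Prod.ext e2 e3)
        have g3 : φ c ω' = φ c ω := hφ ω' ω hω' hω g2
        rw [Finset.mem_image]
        refine ⟨(N (c + 1) ω').τ, ?_, ?_⟩
        · rw [← g2]
          exact kids_par ((h ω' hω').par c (by omega))
        · unfold nd
          rw [g3]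
      · rw [if_neg hb]
        refine ⟨_, floor_card M ((2:ℝ) ^ ((c + 1) * n) * fn (φ c ω) (s (c + 1) (N (c + 1) ω).τ)), fun ω' hω' e => ?_⟩
        simp only [Prod.mk.injEq] at e
        obtain ⟨e1, e2, e3, e4⟩ := e
        refine floor_mem M ?_
        rw [abs_sub_comm]
        exact (nd_close h hC hs hn hcb hbi hi φ hφ θ hω hω' (not_lt.1 hb) (hnode ω' ω hω' hω (Prod.ext e2 e3)).symm
          (hG ω' ω hω' hω e4).symm e1.symm).trans hM)
  refine h1.trans ?_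
  unfold pb
  have h2 : Real.log (2 * M + 3) + 2 * n * Real.log 2 *
      P.ex (fun ω => if Bad φ θ (B * (1 / 2 : ℝ) ^ n) c ω then 1 else 0) =
      P.ex (fun ω => Real.log (2 * M + 3) + 2 * n * Real.log 2 *
        (if Bad φ θ (B * (1 / 2 : ℝ) ^ n) c ω then 1 else 0)) := by
    rw [P.ex_add, P.ex_const, P.ex_const_mul]
  rw [h2]
  refine P.ex_mono fun ω _ => ?_
  have hlog : 0 ≤ Real.log (2 * M + 3) := Real.log_nonneg (by
    have : (0:ℝ) ≤ M := Nat.cast_nonneg M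
    linarith)
  by_cases hb : Bad φ θ (B * (1 / 2 : ℝ) ^ n) c ω
  · rw [if_pos hb, if_pos hb]
    push_cast
    rw [Real.log_pow]
    push_cast
    linarith
  · rw [if_neg hb, if_neg hb]
    push_cast
    linarith

/-- one step of the chain -/
theorem qdig_step (h : Flags P n K s N) {C : ℝ} (hC : 0 ≤ C) (hs : Slp C n K s) (hn : 1 ≤ n) {b c i : ℕ} (hcb : c < b)
    (hbi : b ≤ i) (hi : i ≤ K) (φ : ℕ → Ω → ℝ) (hφ : Fn P (φ c) (N c)) (G : Ω → α) (θ : Ω → ℝ) (hG : Fn P θ G)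
    {B : ℝ} {M : ℕ} (hM : 1 + 8 * C + 8 * B * C ≤ M) :
    hc P (fun ω => (N (c + 1) ω).τ) (fun ω => (N 0 ω, (N c ω).τ)) -
        hc P (fun ω => (N (c + 1) ω).τ) (fun ω => (N c ω, nd φ s n N c ω)) +
        hc P (qd θ s n N b i) (fun ω => (N 0 ω, (N (c + 1) ω).τ, G ω)) ≤
      hc P (qd θ s n N b i) (fun ω => (N 0 ω, (N c ω).τ, G ω)) +
        (Real.log (2 * M + 3) + 2 * n * Real.log 2 * pb P (Bad φ θ (B * (1 / 2 : ℝ) ^ n) c) +
        hc P G (fun ω => (N 0 ω, (N c ω).τ))) := by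
  have hcap := h.cap_fn (Nat.le_succ c) (by omega : c + 1 ≤ K)
  have hnode := h.node_fn (by omega : c ≤ K)
  have hnode' := h.node_fn (by omega : c + 1 ≤ K)
  have a1 := nd_cost h hC hs hn hcb hbi hi φ hφ G θ hG hM
  set q := qd θ s n N b i
  set d := nd φ s n N c
  have a2 := hc_pair P q d (fun ω => (N 0 ω, (N c ω).τ, G ω))
  have a3 := hc_pair P d q (fun ω => (N 0 ω, (N c ω).τ, G ω))
  have a4 : hc P (fun ω => (q ω, d ω)) (fun ω => (N 0 ω, (N c ω).τ, G ω)) =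
      hc P (fun ω => (d ω, q ω)) (fun ω => (N 0 ω, (N c ω).τ, G ω)) := by
    refine hc_congr P ?_ ?_ (fun ω ω' _ _ e => e) (fun ω ω' _ _ e => e)
    · intro ω ω' _ _ e
      simp only [Prod.mk.injEq] at e ⊢
      exact ⟨e.1.2, e.1.1⟩
    · intro ω ω' _ _ e
      simp only [Prod.mk.injEq] at e ⊢
      exact ⟨e.1.2, e.1.1⟩
  have a5 : hc P q (fun ω => (N 0 ω, (N (c + 1) ω).τ, G ω)) ≤
      hc P q (fun ω => (d ω, (N 0 ω, (N c ω).τ, G ω))) := by
    refine hc_mono_right P _ ?_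
    intro ω ω' p p' e
    simp only [Prod.mk.injEq] at e ⊢
    obtain ⟨e1, e2, e3⟩ := e
    have g1 : (N c ω).τ = (N c ω').τ := hcap ω ω' p p' e2
    have g2 : N c ω = N c ω' := hnode ω ω' p p' (Prod.ext e1 g1)
    have g3 : φ c ω = φ c ω' := hφ ω ω' p p' g2
    refine ⟨?_, e1, g1, e3⟩
    show nd φ s n N c ω = nd φ s n N c ω'
    simp only [nd, e2, g3]
  have a6 := hc_le_add P (fun ω => (N (c + 1) ω).τ) d (fun ω => (N 0 ω, (N c ω).τ, G ω))
  have a7 : hc P (fun ω => (N (c + 1) ω).τ) (fun ω => (d ω, (N 0 ω, (N c ω).τ, G ω))) ≤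
      hc P (fun ω => (N (c + 1) ω).τ) (fun ω => (N c ω, d ω)) := by
    refine hc_mono_right P _ ?_
    intro ω ω' p p' e
    simp only [Prod.mk.injEq] at e ⊢
    exact ⟨hnode ω ω' p p' (Prod.ext e.2.1 e.2.2.1), e.1⟩
  have a8 := hc_le_add' P (fun ω => (N (c + 1) ω).τ) G (fun ω => (N 0 ω, (N c ω).τ))
  have a9 : hc P (fun ω => (N (c + 1) ω).τ) (fun ω => (G ω, (N 0 ω, (N c ω).τ))) =
      hc P (fun ω => (N (c + 1) ω).τ) (fun ω => (N 0 ω, (N c ω).τ, G ω)) := by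
    refine hc_congr P (fun ω ω' _ _ e => (Prod.mk.inj e).1) (fun ω ω' _ _ e => (Prod.mk.inj e).1) ?_ ?_
    · intro ω ω' _ _ e
      simp only [Prod.mk.injEq] at e ⊢
      exact ⟨e.2.2, e.1, e.2.1⟩
    · intro ω ω' _ _ e
      simp only [Prod.mk.injEq] at e ⊢
      exact ⟨e.2.1, e.2.2, e.1⟩
  linarith

/-- **QDIG**, the direction half of the case (P) -/
theorem qdig (h : Flags P n K s N) {C : ℝ} (hC : 0 ≤ C) (hs : Slp C n K s) (hn : 1 ≤ n) {a b i : ℕ} (hab : a ≤ b)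
    (hbi : b ≤ i) (hi : i ≤ K) (φ : ℕ → Ω → ℝ) (hφ : ∀ c, a ≤ c → c < b → Fn P (φ c) (N c)) (G : Ω → α) (θ : Ω → ℝ)
    (hG : Fn P θ G) {B : ℝ} {M : ℕ} (hM : 1 + 8 * C + 8 * B * C ≤ M) :
    ∑ c ∈ Finset.Ico a b, (hc P (fun ω => (N (c + 1) ω).τ) (fun ω => (N 0 ω, (N c ω).τ)) -
        hc P (fun ω => (N (c + 1) ω).τ) (fun ω => (N c ω, nd φ s n N c ω))) ≤
      hc P (qd θ s n N b i) (fun ω => (N 0 ω, (N a ω).τ, G ω)) +
        ∑ c ∈ Finset.Ico a b, (Real.log (2 * M + 3) +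
          2 * n * Real.log 2 * pb P (Bad φ θ (B * (1 / 2 : ℝ) ^ n) c) + hc P G (fun ω => (N 0 ω, (N a ω).τ))) := by
  have key : ∀ m, a + m ≤ b → ∑ c ∈ Finset.Ico a (a + m), (hc P (fun ω => (N (c + 1) ω).τ)
        (fun ω => (N 0 ω, (N c ω).τ)) - hc P (fun ω => (N (c + 1) ω).τ) (fun ω => (N c ω, nd φ s n N c ω))) +
        hc P (qd θ s n N b i) (fun ω => (N 0 ω, (N (a + m) ω).τ, G ω)) ≤
      hc P (qd θ s n N b i) (fun ω => (N 0 ω, (N a ω).τ, G ω)) +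
        ∑ c ∈ Finset.Ico a (a + m), (Real.log (2 * M + 3) +
          2 * n * Real.log 2 * pb P (Bad φ θ (B * (1 / 2 : ℝ) ^ n) c) + hc P G (fun ω => (N 0 ω, (N a ω).τ))) := by
    intro m
    induction m with
    | zero => intro _; simp
    | succ m ih =>
      intro hm
      have h1 := ih (by omega)
      have h2 := qdig_step h hC hs hn (c := a + m) (by omega) hbi hi φ (hφ _ (by omega) (by omega)) G θ hG hM
      have h3 : hc P G (fun ω => (N 0 ω, (N (a + m) ω).τ)) ≤ hc P G (fun ω => (N 0 ω, (N a ω).τ)) := by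
        refine hc_mono_right P _ ?_
        intro ω ω' p p' e
        simp only [Prod.mk.injEq] at e ⊢
        exact ⟨e.1, h.cap_fn (by omega : a ≤ a + m) (by omega) ω ω' p p' e.2⟩
      rw [← add_assoc, Finset.sum_Ico_succ_top (by omega), Finset.sum_Ico_succ_top (by omega)]
      linarith
  obtain ⟨m, rfl⟩ := Nat.exists_eq_add_of_le hab
  have h1 := key m le_rfl
  have h2 := hc_nonneg P (qd θ s n N (a + m) i) (fun ω => (N 0 ω, (N (a + m) ω).τ, G ω))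
  linarith

end flags

end Vale.Agent.P122.H371
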