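import Vale.Agent.P122.H371.QDig
import Vale.Agent.P122.H518.E12
import Vale.Agent.P122.H265.Sig
import Vale.Agent.P122.H540.Spec

/-!
# P122 / E9, the direction half for regular systems of flags (helper371)

`qhalf` : at thin levels with close frames, `Σ_{2i-j ≤ c < i-u} JF c ≤ h(dq | sig i j)`.  `stQdg : StQdg` (540's Spec).
-/

set_option autoImplicit false

namespace Vale.Agent.P122.H371

open Filter Topology Finset Vale.Agent.P127 Vale.Agent.P127.Stk Vale.Agent.P127.U Vale.Agent.P127.U.Sys Vale.Agent.P122.C2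
  Vale.Agent.P122.E

variable {K : ℕ} (F : Flg K)

/-- normal digit of the slope of the node of level `i`, accuracy `2^-((i-u) n)`, in the frame `ψ` of the piece `sig i j` -/
noncomputable def dq (ψ : ℕ → Nd → ℝ) (i j u : ℕ) : F.S.RV ℤ := fun a ω =>
  ⌊2 ^ ((i - u) * F.n a) * fn (ψ a (F.sig i j a ω)) (F.s a i (F.Y i a ω))⌋

/-- normal digit of the slope of the child -/
noncomputable def dn (φ : ℕ → ℕ → Nd → ℝ) (c : ℕ) : F.S.RV ℤ := fun a ω =>
  ⌊2 ^ ((c + 1) * F.n a) * fn (φ c a (F.sg c a ω)) (F.s a (c + 1) (F.Y (c + 1) a ω))⌋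

/-- the frames of the level `c` and of the piece `sig i j` differ -/
def FrBad (φ : ℕ → ℕ → Nd → ℝ) (ψ : ℕ → Nd → ℝ) (i j : ℕ) (c1 : ℝ) (c : ℕ) (a : ℕ) (ω : F.S.Ω a) : Prop :=
  4 * (2 : ℝ) ^ (-(c1 / 2 * F.S.L a)) < |Real.sin (φ c a (F.sg c a ω) - ψ a (F.sig i j a ω))|

theorem n_pos : ∀ᶠ a in (uf : Filter ℕ), 1 ≤ F.n a := by
  filter_upwards [F.S.L_pos] with a ha
  rw [F.L_eq a] at ha
  exact Nat.pos_of_mul_pos_left ha |> fun h => h

theorem two_tendsto (S : Sys) {η : ℝ} (hη : 0 < η) :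
    Tendsto (fun a => (2 : ℝ) ^ (-(η * S.L a))) (uf : Filter ℕ) (𝓝 0) := by
  have h1 : Tendsto (fun a => (S.L a : ℝ)) (uf : Filter ℕ) atTop :=
    tendsto_natCast_atTop_atTop.comp S.Ltop
  have h2 : Tendsto (fun a => -(η * S.L a * Real.log 2)) (uf : Filter ℕ) atBot := by
    refine tendsto_neg_atTop_atBot.comp ?_
    exact (h1.const_mul_atTop hη).atTop_mul_const (Real.log_pos (by norm_num))
  refine (Real.tendsto_exp_atBot.comp h2).congr fun a => ?_
  rw [Function.comp_apply, Real.rpow_def_of_pos (by norm_num)]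
  congr 1
  ring

/-- the normal digit of the child is a function of the digit `dq`, of the point, of the cap and of the piece -/
theorem dn_zero (hK : 1 ≤ K) (φ : ℕ → ℕ → Nd → ℝ) (ψ : ℕ → Nd → ℝ) {c1 : ℝ} (hc1 : 2 ≤ c1 * K) {i j u c : ℕ}
    (hcb : c < i - u) (hi : i ≤ K) (hR : Rare F.S (FrBad F φ ψ i j c1 c)) :
    F.S.hc (dn F φ c) (Sys.pr (dq F ψ i j u) (Sys.pr F.x (Sys.pr (F.Y c) (F.sig i j)))) = 0 := by
  obtain ⟨η, hη, hR⟩ := hR
  obtain ⟨M, hM⟩ := exists_nat_ge (1 + 8 * F.C + 8 * 4 * F.C)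
  have hC : 0 ≤ F.C := H474.Chn.C_nonneg (F.slp 0)
  have key : ∀ᶠ a in (uf : Filter ℕ), Stk.hc (F.S.P a) (dn F φ c a)
      (Sys.pr (dq F ψ i j u) (Sys.pr F.x (Sys.pr (F.Y c) (F.sig i j))) a) / F.S.nm a ≤
        Real.log (2 * M + 3) / F.S.nm a + 2 * (2 : ℝ) ^ (-(η * F.S.L a)) := by
    filter_upwards [n_pos F, F.S.nm_pos, hR] with a hn hnm hr
    have hfl : Flags (F.S.P a) (F.n a) K (F.s a) (fun c => F.N c a) := by
      intro ω hω
      refine ⟨fun d hd => (F.step a ω hω d hd).2, fun d hd => (par_kids (F.step a ω hω d hd).1).symm,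
        fun d hd => ?_⟩
      exact (H265.chn F a ω hω).cap d hd
    have h1 := nd_cost hfl hC (F.slp a) hn hcb (Nat.sub_le i u) hi
      (fun c ω => φ c a (F.sg c a ω)) (fun ω ω' _ _ e => by
        have e' : F.N c a ω = F.N c a ω' := e
        show φ c a ((F.N c a ω).sg (F.n a)) = φ c a ((F.N c a ω').sg (F.n a))
        rw [e']) (F.sig i j a) (fun ω => ψ a (F.sig i j a ω)) (fun ω ω' _ _ e => congrArg (ψ a) e)
      (B := 4) hM
    have hbad : pb (F.S.P a) (Bad (fun c ω => φ c a (F.sg c a ω)) (fun ω => ψ a (F.sig i j a ω))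
        (4 * (1 / 2 : ℝ) ^ F.n a) c) ≤ (2 : ℝ) ^ (-(η * F.S.L a)) := by
      refine le_trans ?_ hr
      unfold pb prb
      refine (F.S.P a).ex_mono fun ω _ => ?_
      have hp : (2 : ℝ) ^ (-(c1 / 2 * F.S.L a)) ≤ (1 / 2 : ℝ) ^ F.n a := by
        rw [one_div, inv_pow, ← Real.rpow_natCast, ← Real.rpow_neg (by norm_num)]
        refine Real.rpow_le_rpow_of_exponent_le (by norm_num) ?_
        rw [F.L_eq a]
        push_cast
        have : (0:ℝ) ≤ F.n a := Nat.cast_nonneg _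
        nlinarith
      by_cases hb : Bad (fun c ω => φ c a (F.sg c a ω)) (fun ω => ψ a (F.sig i j a ω))
          (4 * (1 / 2 : ℝ) ^ F.n a) c ω
      · have hb' : FrBad F φ ψ i j c1 c a ω := by
          refine lt_of_le_of_lt ?_ hb
          linarith
        rw [if_pos hb, if_pos hb']
      · rw [if_neg hb]
        split_ifs <;> norm_num
    have h2 : Stk.hc (F.S.P a) (dn F φ c a)
      (Sys.pr (dq F ψ i j u) (Sys.pr F.x (Sys.pr (F.Y c) (F.sig i j))) a) ≤ Real.log (2 * M + 3) +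
        2 * F.n a * Real.log 2 * (2 : ℝ) ^ (-(η * F.S.L a)) := by
      refine le_trans h1 ?_
      have : 0 ≤ 2 * (F.n a : ℝ) * Real.log 2 := by
        have := Real.log_pos (by norm_num : (1:ℝ) < 2)
        positivity
      nlinarith
    rw [div_le_iff₀ hnm, add_mul, div_mul_cancel₀ _ hnm.ne']
    refine h2.trans ?_
    have hKn : (F.n a : ℝ) * Real.log 2 ≤ F.S.nm a := by
      unfold Sys.nm
      rw [F.L_eq a]
      push_cast
      have h3 := Real.log_pos (by norm_num : (1:ℝ) < 2)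
      have h4 : (1:ℝ) ≤ K := by exact_mod_cast hK
      have h5 : (0:ℝ) ≤ F.n a := Nat.cast_nonneg _
      have h6 : (F.n a : ℝ) ≤ K * F.n a := by nlinarith
      nlinarith
    have h7 : (0:ℝ) < (2 : ℝ) ^ (-(η * F.S.L a)) := by positivity
    nlinarith
  refine ulim_eq (squeeze_zero' ?_ key ?_)
  · filter_upwards [F.S.nm_pos] with a ha
    exact div_nonneg (Stk.hc_nonneg _ _ _) ha.le
  · have h1 := F.S.const_div_nm (Real.log (2 * M + 3))
    have h2 := (two_tendsto F.S hη).const_mul 2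
    simpa using h1.add h2

variable {F}

/-- **direction half of E9** -/
theorem qhalf {J θ H e : ℕ → ℝ} {W : ℕ → F.S.BX} {kk jj : ℕ → ℕ → ℕ} {κ c1 : ℝ} {φ : ℕ → ℕ → Nd → ℝ} {JF : ℕ → ℝ}
    (hK : 1 ≤ K) (R : RegB F J θ H e W kk jj κ c1 φ JF) (hc1 : 2 ≤ c1 * K) (ψ : ℕ → Nd → ℝ) {i j u : ℕ}
    (hij : i ≤ j) (hji : j ≤ 2 * i) (hjK : j ≤ K)
    (hth : ∀ c, 1 ≤ c → 2 * i - j ≤ c → c < i - u → Thin F e jj κ c1 c)
    (hfr : ∀ c, 1 ≤ c → 2 * i - j ≤ c → c < i - u → Rare F.S (FrBad F φ ψ i j c1 c)) :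
    ∑ c ∈ Ico (2 * i - j) (i - u), (if 1 ≤ c then JF c else 0) ≤ F.S.hc (dq F ψ i j u) (F.sig i j) := by
  have hcts := H518.cts hK R.toRegA
  have tN := hcts.tre.tN
  have iK : i ≤ K := hij.trans hjK
  have tY : ∀ c, c ≤ K → Tame (F.Y c) := fun c hc => (tN c hc).mono (H518.F_YN F c)
  have fsig : Sys.Fn (F.sig i j) (F.N i) := Eventually.of_forall fun a ω ω' _ _ e => by
    have e' : F.N i a ω = F.N i a ω' := e
    show F.sig i j a ω = F.sig i j a ω'
    unfold Flg.sig
    rw [e']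
  have tsig : Tame (F.sig i j) := (tN i iK).mono fsig
  have tq : Tame (dq F ψ i j u) := (tN i iK).mono (Eventually.of_forall fun a ω ω' _ _ e => by
    have e' : F.N i a ω = F.N i a ω' := e
    show dq F ψ i j u a ω = dq F ψ i j u a ω'
    unfold dq Flg.sig Flg.Y
    rw [e'])
  have tx : Tame F.x := tN 0 (Nat.zero_le _)
  set a₀ := 2 * i - j with ha₀
  set q := dq F ψ i j u with hq
  -- the condition of the level `c`
  let Z : ℕ → F.S.RV (Nd × Z2 × Nd) := fun c => Sys.pr F.x (Sys.pr (F.Y c) (F.sig i j))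
  have hmono : ∀ c, c < K → Sys.Fn (Z c) (Z (c + 1)) := by
    intro c hcK
    have g0 : Sys.Fn (F.Y c) (Z (c + 1)) :=
      H518.ftr (H518.F_YY F hcK) (Eventually.of_forall fun a ω ω' _ _ e => by
        simp only [pr_apply, Z, Prod.mk.injEq] at e ⊢
        exact e.2.1)
    exact H518.fpr (H518.ffst _ _) (H518.fpr g0 (Eventually.of_forall fun a ω ω' _ _ e => by
      simp only [pr_apply, Z, Prod.mk.injEq] at e ⊢
      exact e.2.2))
  have hstep : ∀ c, a₀ ≤ c → c < i - u →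
      (if 1 ≤ c then JF c else 0) + F.S.hc q (Z (c + 1)) ≤ F.S.hc q (Z c) := by
    intro c hac hcb
    have hcK : c < K := by omega
    rcases Nat.eq_zero_or_pos c with hc0 | hcpos
    · rw [if_neg (by omega), zero_add]
      exact hc_mono_right tq (hmono c hcK)
    rw [if_pos (by omega)]
    have hth' := hth c hcpos hac hcb
    have tnd : Tame (dn F φ c) := ((tN c hcK.le).pr (tY (c + 1) hcK)).mono
      (Eventually.of_forall fun a ω ω' _ _ e => by
        have e1 : F.N c a ω = F.N c a ω' := congrArg Prod.fst e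
        have e2 : F.Y (c + 1) a ω = F.Y (c + 1) a ω' := congrArg Prod.snd e
        show dn F φ c a ω = dn F φ c a ω'
        unfold dn Flg.sg
        rw [e1, e2])
    have hz := dn_zero F hK φ ψ hc1 (c := c) (u := u) hcb iK (hfr c hcpos hac hcb)
    -- children given the digit
    have b1 : F.S.hc (F.Y (c + 1)) (Sys.pr (F.N c) (dn F φ c)) ≤ J c - JF c :=
      H518.cnt_hc_le (R.C2 c (by omega) hcK hth')
    have b2 : F.S.hc (F.Y (c + 1)) (Sys.pr F.x (F.Y c)) = J c := by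
      have := (H518.e1 F J θ H e W kk jj hK R.toRegA).2.2.1 c (c + 1) (Nat.le_succ c) hcK
      rw [this, ← H518.nM_sub J (Nat.le_succ c)]
      simp
    have b3 : F.S.hc (F.sig i j) (Sys.pr F.x (F.Y c)) = 0 := by
      have g1 := H265.sig_xY F hij hji iK
      have g2 : F.S.hc (F.sig i j) (Sys.pr F.x (F.Y c)) ≤ F.S.hc (F.sig i j) (Sys.pr F.x (F.Y (2 * i - j))) := by
        refine hc_mono_right tsig ?_
        exact H518.fpr (H518.ffst _ _) (H518.ftr (hcts.tre.YY' hac hcK.le) (H518.fsnd _ _))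
      exact le_antisymm (g2.trans g1.le) (hc_nonneg tsig _)
    have b4 := hc_le_add (tY (c + 1) hcK) tsig (Sys.pr F.x (F.Y c))
    have b5 : F.S.hc (F.Y (c + 1)) (Sys.pr (F.sig i j) (Sys.pr F.x (F.Y c))) ≤ F.S.hc (F.Y (c + 1)) (Z c) := by
      refine hc_mono_right (tY (c + 1) hcK) ?_
      exact Eventually.of_forall fun a ω ω' _ _ e => by
        simp only [pr_apply, Z, Prod.mk.injEq] at e ⊢
        exact ⟨e.2.1, e.2.2, e.1⟩
    have b6 := hc_le_add (tY (c + 1) hcK) tnd (Z c)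
    have b7 : F.S.hc (F.Y (c + 1)) (Sys.pr (dn F φ c) (Z c)) ≤
        F.S.hc (F.Y (c + 1)) (Sys.pr (F.N c) (dn F φ c)) := by
      refine hc_mono_right (tY (c + 1) hcK) ?_
      have g1 : Sys.Fn (F.N c) (Z c) :=
        H518.ftr (hcts.tre.NxY le_rfl hcK.le) (Eventually.of_forall fun a ω ω' _ _ e => by
          simp only [pr_apply, Z, Prod.mk.injEq] at e ⊢
          exact ⟨e.1, e.2.1⟩)
      exact H518.fpr (H518.ftr g1 (H518.fsnd _ _)) (H518.ffst _ _)
    -- the digit `q` determines the digit `dn`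
    have c1' := hc_pair tq tnd (Z c)
    have c2' := hc_pair tnd tq (Z c)
    have c3' : F.S.hc (Sys.pr q (dn F φ c)) (Z c) = F.S.hc (Sys.pr (dn F φ c) q) (Z c) :=
      hc_congr (Eventually.of_forall fun a ω ω' _ _ e => by
          simp only [pr_apply, Prod.mk.injEq] at e ⊢
          exact ⟨e.1.2, e.1.1⟩)
        (Eventually.of_forall fun a ω ω' _ _ e => by
          simp only [pr_apply, Prod.mk.injEq] at e ⊢
          exact ⟨e.1.2, e.1.1⟩) (H518.frf _) (H518.frf _)
    have c4' : F.S.hc q (Z (c + 1)) ≤ F.S.hc q (Sys.pr (dn F φ c) (Z c)) := by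
      refine hc_mono_right tq ?_
      have g1 : Sys.Fn (Z c) (Z (c + 1)) := hmono c hcK
      have g2 : Sys.Fn (F.N c) (Z (c + 1)) :=
        H518.ftr (hcts.tre.NxY le_rfl hcK.le) (H518.ftr (Eventually.of_forall fun a ω ω' _ _ e => by
          simp only [pr_apply, Z, Prod.mk.injEq] at e ⊢
          exact ⟨e.1, e.2.1⟩) g1)
      refine H518.fpr ?_ g1
      have g3 : Sys.Fn (dn F φ c) (Sys.pr (F.N c) (F.Y (c + 1))) :=
        Eventually.of_forall fun a ω ω' _ _ e => by
          have e1 : F.N c a ω = F.N c a ω' := congrArg Prod.fst e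
          have e2 : F.Y (c + 1) a ω = F.Y (c + 1) a ω' := congrArg Prod.snd e
          show dn F φ c a ω = dn F φ c a ω'
          unfold dn Flg.sg
          rw [e1, e2]
      exact H518.ftr g3 (H518.fpr g2 (Eventually.of_forall fun a ω ω' _ _ e => by
          simp only [pr_apply, Z, Prod.mk.injEq] at e ⊢
          exact e.2.1))
    have hz' : F.S.hc (dn F φ c) (Sys.pr q (Z c)) = 0 := hz
    linarith
  have key : ∀ m, a₀ + m ≤ i - u → ∑ c ∈ Ico a₀ (a₀ + m), (if 1 ≤ c then JF c else 0) +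
      F.S.hc q (Z (a₀ + m)) ≤ F.S.hc q (Z a₀) := by
    intro m
    induction m with
    | zero => intro _; simp
    | succ m ih =>
      intro hm
      have g1 := ih (by omega)
      have g2 := hstep (a₀ + m) (by omega) (by omega)
      rw [← add_assoc, sum_Ico_succ_top (by omega)]
      linarith
  have hlast : F.S.hc q (Z a₀) ≤ F.S.hc q (F.sig i j) := by
    refine hc_mono_right tq (Eventually.of_forall fun a ω ω' _ _ e => ?_)
    simp only [pr_apply, Z, Prod.mk.injEq] at e ⊢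
    exact e.2.2
  rcases le_or_gt a₀ (i - u) with hle | hlt
  · obtain ⟨m, hm⟩ := Nat.exists_eq_add_of_le hle
    have g1 := key m hm.ge
    have g2 := hc_nonneg tq (Z (a₀ + m))
    rw [hm]
    linarith
  · rw [Ico_eq_empty (by omega), sum_empty]
    exact hc_nonneg tq _

/-- **StQdg** of `H540/Spec.lean` -/
theorem stQdg : H540.StQdg := by
  intro K F J θ H e W kk jj κ c1 φ JF hK hc1 R i j u ψ hi hij hji hjK huj h2 hth hfr
  have hK' : (0:ℝ) < K := by exact_mod_cast hK
  have h3 : 2 ≤ c1 * K := by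
    rwa [div_le_iff₀ hK'] at h2
  refine qhalf (u := u) hK R h3 ψ hij hji hjK (fun c _ h4 h5 => hth c h4 (by omega)) ?_
  intro c hc1' h4 h5
  obtain ⟨η, hη, hr⟩ := hfr c hc1' h4 (by omega)
  refine ⟨η, hη, ?_⟩
  filter_upwards [hr, R.frame c hc1' (by omega) (hth c h4 (by omega))] with a h6 h7
  refine le_trans ?_ h6
  unfold prb
  refine (F.S.P a).ex_mono fun ω hω => ?_
  have h8 := h7 ω hω
  by_cases hb : FrBad F φ ψ i j c1 c a ω
  · have hb' : 3 * (2 : ℝ) ^ (-(c1 / 2 * F.S.L a)) < |Real.sin ((W c a).θ ω - ψ a (F.sig i j a ω))| := by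
      unfold FrBad at hb
      have e1 : φ c a (F.sg c a ω) - ψ a (F.sig i j a ω) =
          ((W c a).θ ω - ψ a (F.sig i j a ω)) - ((W c a).θ ω - φ c a (F.sg c a ω)) := by ring
      set x := (W c a).θ ω - ψ a (F.sig i j a ω)
      set y := (W c a).θ ω - φ c a (F.sg c a ω)
      rw [e1, Real.sin_sub] at hb
      have g1 : |Real.sin x * Real.cos y| ≤ |Real.sin x| := by
        rw [abs_mul]
        exact mul_le_of_le_one_right (abs_nonneg _) (Real.abs_cos_le_one _)
      have g2 : |Real.cos x * Real.sin y| ≤ |Real.sin y| := by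
        rw [abs_mul]
        exact mul_le_of_le_one_left (abs_nonneg _) (Real.abs_cos_le_one _)
      have g3 := abs_sub (Real.sin x * Real.cos y) (Real.cos x * Real.sin y)
      linarith
    rw [if_pos hb, if_pos hb']
  · rw [if_neg hb]
    split_ifs <;> norm_num

end Vale.Agent.P122.H371
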