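import Vale.Agent.P122.H371.QHalf
import Vale.Agent.P122.H465.E9Defs

/-!
# P122 / E9 : `QHalf` of 465's interface (helper371)
-/

set_option autoImplicit false

namespace Vale.Agent.P122.H371

open Filter Topology Finset Vale.Agent.P127 Vale.Agent.P127.Stk Vale.Agent.P127.U Vale.Agent.P127.U.Sys Vale.Agent.P122.C2
  Vale.Agent.P122.E

theorem qHalf465 (κ₀ : ℝ) : H465.QHalf κ₀ 2 := by
  intro K κ F J θ H e W kk jj c1 φ JF ψ i j u _ X
  have hK' : (0:ℝ) < K := by exact_mod_cast X.K1
  have h3 : 2 ≤ c1 * K := by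
    have := X.cK
    rwa [div_le_iff₀ hK'] at this
  have hij := X.ij
  have hj2 := X.j2
  have key := qhalf (u := u) X.K1 X.reg h3 ψ hij (by omega) X.jK
    (fun c _ h4 h5 => X.thin c h4 (by omega)) (fun c _ h4 h5 => X.frc c h4 (by omega))
  have h1 : ∑ c ∈ Ico (2 * i - j) (i - u), JF c = ∑ c ∈ Ico (2 * i - j) (i - u), (if 1 ≤ c then JF c else 0) := by
    refine Finset.sum_congr rfl fun c hc => ?_
    rw [Finset.mem_Ico] at hc
    rw [if_pos (by omega)]
  rw [h1]
  refine key.trans ?_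
  have : (0:ℝ) ≤ 2 / K := by positivity
  exact le_add_of_nonneg_right this

end Vale.Agent.P122.H371
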